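import Vale.Agent.P235.Bdl.B1

/-!
P235, line CX: connected graphs with at most `j` vertices (helper76).
-/

set_option autoImplicit false

namespace Vale.Agent.P235.CX.H76

open Vale.Agent.P235

/-- the sum of the distance functions -/
theorem small {V : Type} [Finite V] {G : SimpleGraph V} (hG : G.Connected) {j : ℕ}
    (hj : Nat.card V ≤ j) : DistortionLE G ((j : ℝ) + 1) := by
  classical
  have := Fintype.ofFinite V
  intro ℓ hℓ
  have hm := pathDist_isMet hG hℓ
  set d := pathDist G ℓ with hd
  have h0 : ∀ x y, 0 ≤ d x y := fun x y => by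
    by_cases h : x = y
    · rw [h, hm.self]
    · exact (hm.pos x y h).le
  have hF : IsL1 fun x y => ∑ z : V, |d z x - d z y| :=
    IsL1.sum Finset.univ (fun z x y => |d z x - d z y|) fun z _ => isL1_line (fun x => d z x)
  refine hF.embeds ?_ ?_
  · intro x y
    have h1 : |d x x - d x y| ≤ ∑ z : V, |d z x - d z y| :=
      Finset.single_le_sum (f := fun z => |d z x - d z y|) (fun z _ => abs_nonneg _)
        (Finset.mem_univ x)
    rw [hm.self, zero_sub, abs_neg, abs_of_nonneg (h0 x y)] at h1
    exact h1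
  · intro x y
    have h2 : ∑ z : V, |d z x - d z y| ≤ ∑ _z : V, d x y := Finset.sum_le_sum fun z _ => by
      rw [abs_le]
      constructor <;> linarith [hm.tri z x y, hm.tri z y x, hm.symm x y]
    rw [Finset.sum_const, nsmul_eq_mul, Finset.card_univ, ← Nat.card_eq_fintype_card] at h2
    refine h2.trans (mul_le_mul_of_nonneg_right ?_ (h0 x y))
    have h3 : ((Nat.card V : ℕ) : ℝ) ≤ (j : ℝ) := by exact_mod_cast hj
    linarith

/-- `SmallStmt` -/
def SmallStmt : Prop := ∀ j : ℕ, ∃ K : ℝ, 1 ≤ K ∧ ∀ (V : Type) [Finite V] (G : SimpleGraph V),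
  G.Connected → Nat.card V ≤ j → DistortionLE G K

theorem smallStmt : SmallStmt := fun j => ⟨(j : ℝ) + 1, by
  have : (0 : ℝ) ≤ (j : ℝ) := Nat.cast_nonneg j
  linarith, fun _ _ _ hG hj => small hG hj⟩

end Vale.Agent.P235.CX.H76
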