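import Vale.Agent.P235.XC.Defs

/-!
P235, line XC, row [X5b]: the blocks of the large grid (helper76).
-/

set_option autoImplicit false

namespace Vale.Agent.P235.XC.H76

open SimpleGraph Vale.Agent.P235.H134 Vale.Agent.P235.XC

/-- a rectangle of the grid is connected -/
theorem rect_conn {N : ℕ} (S : Set (Fin N × Fin N)) (a b c d : ℕ)
    (hS : ∀ x : Fin N × Fin N,
      x ∈ S ↔ a ≤ x.1.val ∧ x.1.val < b ∧ c ≤ x.2.val ∧ x.2.val < d)
    (hb : a < b) (hbN : b ≤ N) (hd : c < d) (hdN : d ≤ N) :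
    ((grid N).induce S).Connected := by
  have ho : ((⟨a, by omega⟩, ⟨c, by omega⟩) : Fin N × Fin N) ∈ S := by
    rw [hS]
    exact ⟨le_rfl, hb, le_rfl, hd⟩
  have key : ∀ n : ℕ, ∀ x : Fin N × Fin N, ∀ hx : x ∈ S,
      (x.1.val - a) + (x.2.val - c) = n → ((grid N).induce S).Reachable ⟨_, ho⟩ ⟨x, hx⟩ := by
    intro n
    induction n with
    | zero =>
      rintro ⟨⟨i, hi⟩, ⟨j, hj⟩⟩ hx hn
      have h := (hS _).1 hx
      simp only at hn h
      have h1 : i = a := by omega
      have h2 : j = c := by omega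
      subst h1
      subst h2
      exact Reachable.refl _
    | succ n ih =>
      rintro ⟨⟨i, hi⟩, ⟨j, hj⟩⟩ hx hn
      have h := (hS _).1 hx
      simp only at hn h
      by_cases hia : a < i
      · have hy : ((⟨i - 1, by omega⟩, ⟨j, hj⟩) : Fin N × Fin N) ∈ S := by
          rw [hS]
          refine ⟨?_, ?_, ?_, ?_⟩ <;> simp only <;> omega
        have hr := ih _ hy (by simp only; omega)
        refine hr.trans (Adj.reachable ?_)
        show (grid N).Adj _ _
        rw [grid, boxProd_adj]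
        refine Or.inl ⟨?_, rfl⟩
        rw [pathGraph_adj]
        left
        show i - 1 + 1 = i
        omega
      · have hjc : c < j := by omega
        have hy : ((⟨i, hi⟩, ⟨j - 1, by omega⟩) : Fin N × Fin N) ∈ S := by
          rw [hS]
          refine ⟨?_, ?_, ?_, ?_⟩ <;> simp only <;> omega
        have hr := ih _ hy (by simp only; omega)
        refine hr.trans (Adj.reachable ?_)
        show (grid N).Adj _ _
        rw [grid, boxProd_adj]
        refine Or.inr ⟨?_, rfl⟩
        rw [pathGraph_adj]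
        left
        show j - 1 + 1 = j
        omega
  have : Nonempty S := ⟨⟨_, ho⟩⟩
  exact ⟨fun x y => (key _ x.1 x.2 rfl).symm.trans (key _ y.1 y.2 rfl)⟩

theorem bs_end (r : ℕ) (k : Fin 64) : bs r k.val + (r + 2) + 5 ≤ RX r := by
  have h1 : k.val * (r + 6) ≤ 63 * (r + 6) := Nat.mul_le_mul_right _ (by have := k.2; omega)
  unfold bs RX
  omega

theorem bs_lt {r : ℕ} {k l : ℕ} (h : k < l) : bs r k + (r + 6) ≤ bs r l := by
  have h1 : (k + 1) * (r + 6) ≤ l * (r + 6) := Nat.mul_le_mul_right _ h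
  rw [Nat.add_mul, Nat.one_mul] at h1
  unfold bs
  omega

theorem blk_conn (r : ℕ) (k : Fin 64) : ((grid (RX r)).induce (blkX r k)).Connected :=
  rect_conn _ (bs r k.val) (bs r k.val + (r + 2)) (bs r k.val) (bs r k.val + (r + 2))
    (fun _ => Iff.rfl) (by omega) (by have := bs_end r k; omega) (by omega)
    (by have := bs_end r k; omega)

theorem blk_disj (r : ℕ) {k l : Fin 64} (h : k ≠ l) : Disjoint (blkX r k) (blkX r l) := by
  rw [Set.disjoint_left]
  rintro x ⟨h1, h2, -, -⟩ ⟨h3, h4, -, -⟩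
  have hkl : k.val ≠ l.val := fun e => h (Fin.ext e)
  rcases Nat.lt_or_gt_of_ne hkl with hlt | hlt
  · have := bs_lt (r := r) hlt
    omega
  · have := bs_lt (r := r) hlt
    omega

theorem blk_card {r : ℕ} (k : Fin 64) : 3 ≤ (blkX r k).ncard := by
  have he := bs_end r k
  have h : 2 < (blkX r k).ncard := by
    rw [Set.two_lt_ncard_iff (Set.toFinite _)]
    refine ⟨(⟨bs r k.val, by omega⟩, ⟨bs r k.val, by omega⟩),
      (⟨bs r k.val, by omega⟩, ⟨bs r k.val + 1, by omega⟩),
      (⟨bs r k.val + 1, by omega⟩, ⟨bs r k.val, by omega⟩), ?_, ?_, ?_, ?_, ?_, ?_⟩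
    · show _ ∧ _ ∧ _ ∧ _
      refine ⟨?_, ?_, ?_, ?_⟩ <;> simp only <;> omega
    · show _ ∧ _ ∧ _ ∧ _
      refine ⟨?_, ?_, ?_, ?_⟩ <;> simp only <;> omega
    · show _ ∧ _ ∧ _ ∧ _
      refine ⟨?_, ?_, ?_, ?_⟩ <;> simp only <;> omega
    · intro e
      have e2 := congrArg (fun t : Pos r => t.2.val) e
      simp only at e2
      omega
    · intro e
      have e2 := congrArg (fun t : Pos r => t.1.val) e
      simp only at e2
      omega
    · intro e
      have e2 := congrArg (fun t : Pos r => t.1.val) e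
      simp only at e2
      omega
  exact h

/-- **[X5b]** -/
theorem blocks : BlocksStmt := fun r _ =>
  ⟨blk_conn r, fun _ _ h => blk_disj r h, fun k => blk_card k⟩

end Vale.Agent.P235.XC.H76
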